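import Vale.Agent.P141.H971.Cen
import Vale.Agent.P141.H136.Scal3
import Vale.Agent.P141.H639.PermV
import Vale.Agent.P141.H347.GLev
import Vale.Agent.P141.H498.CEtop

/-!
# P141, CE: the frozen statements between `H498.CFOut` and the engine

Chain: `H501.CEOut ⇐ H498.CFOut ⇐ CenSt ⇐ CE1St ⇐ CE1n`.

* `CE1n`: the price of a normalised centre atom `g (x₂, x₃) ⟪u (x₁, x₂), v (x₁, x₃)⟫` on a box;
  label vertex `x₁`, split end `x₂` (light rows), arbitrary slot `F2` (edge `v`), `F1`, `F3`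
  uniform at the level `Kt t ^ (1 - c)`; potentials at most `L t ^ (2 - c) √s`;
* `CE1St`: the same for data of height `h` and energy `p` (letters of `H971.GenU`);
* `CenSt`: the price in the costs of the systems of the level `j`, any position of the vertices,
  any slot;
* `CFSt := H498.CFOut`.
-/

namespace Vale.Agent.P141.H650

open Finset
open Vale.Agent.P141.PL (Pt fc)
open Vale.Agent.P141.PL.H315 (iv)
open Vale.Agent.P141.PL.H95 (gr)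
open Vale.Agent.P141.H48 (US ES)
open Vale.Agent.P141.H572 (cosF)
open Vale.Agent.P141.H136 (comp)
open Vale.Agent.P141.H639 (cenf Dis co pfw)
open Vale.Agent.P141.H971 (Cen)
open Vale.Agent.P141.H347.Gs (Ex e2)

noncomputable section

/-- **CE1, normalised data, one box**: `s` = mass, gain `t ^ gam` over the natural price
`t ^ (1 - c) s ^ (5 / 4)`. -/
def CE1n : Prop :=
  ∃ gam c1 : ℝ, 0 < gam ∧ 0 < c1 ∧ ∀ c : ℝ, 0 ≤ c → c ≤ c1 →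
  ∀ Kt e cP L : ℝ, 0 < Kt → 1 ≤ e → 0 ≤ cP → 0 ≤ L → ∃ C : ℝ, 0 ≤ C ∧
  ∀ t : ℝ, 0 < t → t ≤ 1 → ∀ (n : ℕ) (ez : ℝ) (F1 F2 F3 : ℕ → Pt → ℝ),
    US n (Kt * t ^ (1 - c)) e cP F1 → US n (Kt * t ^ (1 - c)) e cP F3 → ES n ez cP F2 →
  ∀ o : ℤ, o = 1 ∨ o = -1 → ∀ K ≤ n, ∀ (x : Pt)
    (V : Type) [NormedAddCommGroup V] [InnerProductSpace ℝ V] [FiniteDimensional ℝ V]
    (s : ℝ) (g : ℤ → ℤ → ℝ) (u v : ℤ → ℤ → V), 0 < s →
    Cen (iv K x.2.1) (iv K x.2.2) (iv K x.1) 1 √s 1 (L * t ^ (2 - c) * √s) g u v →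
    cosF o K x (comp (fun p => g p.1 p.2) u v) (fun k _ => F1 k) (fun k _ => F2 k)
        (fun k _ => F3 k) ≤
      C * (t ^ (1 + gam) * s ^ (5 / 4 : ℝ) * √ez * 8 ^ K)

/-- **CE1 for data of height `h` and energy `p`**, one box. -/
def CE1St : Prop :=
  ∃ gam c1 : ℝ, 0 < gam ∧ 0 < c1 ∧ ∀ c : ℝ, 0 ≤ c → c ≤ c1 →
  ∀ Kt e cP L e0 : ℝ, 0 < Kt → 1 ≤ e → 0 ≤ cP → 0 ≤ L → 0 < e0 → ∃ C : ℝ, 0 ≤ C ∧
  ∀ t : ℝ, 0 < t → t ≤ 1 → ∀ (n : ℕ) (ez : ℝ) (F1 F2 F3 : ℕ → Pt → ℝ),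
    US n (Kt * t ^ (1 - c)) e cP F1 → US n (Kt * t ^ (1 - c)) e cP F3 → ES n ez cP F2 →
  ∀ o : ℤ, o = 1 ∨ o = -1 → ∀ K ≤ n, ∀ (x : Pt)
    (V : Type) [NormedAddCommGroup V] [InnerProductSpace ℝ V] [FiniteDimensional ℝ V]
    (h p : ℝ) (g : ℤ → ℤ → ℝ) (u v : ℤ → ℤ → V), 0 ≤ h → 0 ≤ p →
    Cen (iv K x.2.1) (iv K x.2.2) (iv K x.1) h p e0 (L * t ^ (2 - c) * (h * p)) g u v →
    cosF o K x (cenf 0 1 2 g u v) (fun k _ => F1 k) (fun k _ => F2 k) (fun k _ => F3 k) ≤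
      C * (t ^ (1 + gam) * (√h * (p ^ 2 * √p)) * √ez * 8 ^ K)

/-- **The centre atoms in the costs of the level `j`**: any position `(l, m, n)` of the label
vertex, the split end and the other end, any role `r`; `e0` the height constant of the data. -/
def CenSt : Prop :=
  ∃ gam c1 : ℝ, 0 < gam ∧ 0 < c1 ∧ ∀ c : ℝ, 0 ≤ c → c ≤ c1 →
  ∀ Kc L e0 : ℝ, 0 < Kc → 0 ≤ L → 0 < e0 → ∃ C : ℝ, 0 ≤ C ∧
  ∀ e : Ex, e.K = Kc → e.c = c → ∀ (σ : ℤ) (r : Fin 4) (j k : ℕ) (x : ℤ) (q : Pt)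
    (l m n : Fin 3), Dis l m n →
    ∀ (V : Type) [NormedAddCommGroup V] [InnerProductSpace ℝ V] [FiniteDimensional ℝ V]
    (h p : ℝ) (g : ℤ → ℤ → ℝ) (u v : ℤ → ℤ → V), 0 ≤ h → 0 ≤ p →
    Cen (iv k (co m q)) (iv k (co n q)) (iv k (co l q)) h p e0
      (L * e2 (-(2 - c)) j * (h * p)) g u v →
    ((e.mp j).cw σ r).cst (pfw (fc r) k q (cenf l m n g u v)) k ((gr 7 σ).cube k x) ≤
      C * (e2 (-(1 + gam)) j * (√h * (p ^ 2 * √p)) * 8 ^ k)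

/-- **CF** = 498's statement. -/
abbrev CFSt : Prop := H498.CFOut

end

end Vale.Agent.P141.H650
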