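import Vale.Agent.P141.H650.Spec.CE1
import Vale.Agent.P141.H136.Link

/-!
# P141, CE: homogeneity, `CE1n → CE1St`

`cosF_congr`, `cosF_smul`; `Cen.norm`: normalisation of centre data.
-/

namespace Vale.Agent.P141.H650

open Finset
open Vale.Agent.P141.PL (Pt cx cb mem_cb loc)
open Vale.Agent.P141.PL.H315 (iv cube3 avg)
open Vale.Agent.P141.PL.H560 (cbs bx0 loc_congr0)
open Vale.Agent.P141.PL.H317 (cube3_eq)
open Vale.Agent.P141.H48 (US ES)
open Vale.Agent.P141.H572 (cosF locL locL_apply)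
open Vale.Agent.P141.H136 (comp cx_cx mem_cbs')
open Vale.Agent.P141.H639 (cenf Dis co pfw)
open Vale.Agent.P141.H971 (Cen)
open Vale.Agent.P141.H922 (n2 n2_nonneg)
open Vale.Agent.P141.H834 (gf)

noncomputable section

/-- the cost reads the function on the cube only -/
theorem cosF_congr {o : ℤ} {K : ℕ} {x : Pt} {F0 F0' : Pt → ℝ} {F1 F2 F3 : ℕ → Pt → Pt → ℝ}
    (h : ∀ p ∈ cube3 K x, F0 p = F0' p) : cosF o K x F0 F1 F2 F3 = cosF o K x F0' F1 F2 F3 := by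
  unfold cosF
  refine sum_congr rfl fun k hk => ?_
  congr 1
  refine sum_congr rfl fun m hm => ?_
  congr 1
  refine loc_congr0 fun p hp => h p ?_
  have hp' : cx k p = m := mem_cb.1 hp
  rw [mem_cbs'] at hm
  rw [cube3_eq, mem_cb, ← hm, ← hp', cx_cx]
  congr 1
  have := (mem_Icc.1 hk).2
  omega

theorem cosF_smul (o : ℤ) (K : ℕ) (x : Pt) (r : ℝ) (F0 : Pt → ℝ) (F1 F2 F3 : ℕ → Pt → Pt → ℝ) :
    cosF o K x (fun p => r * F0 p) F1 F2 F3 = |r| * cosF o K x F0 F1 F2 F3 := by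
  unfold cosF
  rw [mul_sum]
  refine sum_congr rfl fun k _ => ?_
  rw [mul_left_comm |r|]
  congr 1
  rw [mul_sum]
  refine sum_congr rfl fun m _ => ?_
  rw [← abs_mul]
  congr 1
  have h := map_smul (locL k (bx0 o m) (F1 k m) (F2 k m) (F3 k m)) r F0
  simp only [locL_apply, smul_eq_mul] at h
  exact h

theorem cosF_zero (o : ℤ) (K : ℕ) (x : Pt) (F1 F2 F3 : ℕ → Pt → Pt → ℝ) :
    cosF o K x (fun _ => 0) F1 F2 F3 = 0 := by
  have h := cosF_smul o K x 0 (fun _ => 0) F1 F2 F3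
  simpa using h

variable {V : Type*} [NormedAddCommGroup V] [InnerProductSpace ℝ V]

theorem avg_div {X : Type*} (Q : Finset X) (f : X → ℝ) (r : ℝ) :
    (avg Q fun x => r * f x) = r * avg Q f := by
  unfold Vale.Agent.P141.PL.H315.avg
  rw [← mul_sum]
  ring

/-- **Normalisation of centre data.** -/
theorem Cen.norm {A B C : Finset ℤ} {h p e K : ℝ} {g : ℤ → ℤ → ℝ} {u v : ℤ → ℤ → V}
    (H : Cen A B C h p e K g u v) (hh : 0 < h) (he : 0 < e) :
    Cen A B C 1 (p / h) 1 (K / (h ^ 2 * e)) (fun x y => h⁻¹ * g x y)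
      (fun z x => (h * √e)⁻¹ • u z x) (fun z y => (h * √e)⁻¹ • v z y) := by
  have hse : 0 < √e := Real.sqrt_pos.2 he
  have hq : (0 : ℝ) < h * √e := mul_pos hh hse
  have hq2 : ((h * √e)⁻¹) ^ 2 = (h ^ 2 * e)⁻¹ := by
    rw [inv_pow, mul_pow, Real.sq_sqrt he.le]
  have hn : ∀ w : V, ‖(h * √e)⁻¹ • w‖ ^ 2 = (h ^ 2 * e)⁻¹ * ‖w‖ ^ 2 := by
    intro w
    rw [norm_smul, mul_pow, Real.norm_eq_abs, sq_abs, hq2]
  have hi : ∀ w w' : V, (inner ℝ ((h * √e)⁻¹ • w) w' : ℝ) ^ 2 =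
      (h ^ 2 * e)⁻¹ * (inner ℝ w w' : ℝ) ^ 2 := by
    intro w w'
    rw [real_inner_smul_left, mul_pow, hq2]
  have hpos : 0 < h ^ 2 * e := by positivity
  have e1 : (h ^ 2 * e)⁻¹ * (h ^ 2 * e) = 1 := inv_mul_cancel₀ hpos.ne'
  refine ⟨fun x hx y hy => ?_, ?_, fun x hx => ?_, fun z hz x hx => ?_, fun z hz y hy => ?_,
    ?_, ?_, fun x hx => ?_, fun z hz w => ?_, fun z hz w => ?_⟩
  · rw [abs_mul, abs_inv, abs_of_pos hh, inv_mul_le_iff₀ hh, mul_one]
    exact H.a_le x hx y hy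
  · have e2 : n2 (A ×ˢ B) (gf fun x y => h⁻¹ * g x y) = h⁻¹ * n2 (A ×ˢ B) (gf g) := by
      unfold H922.n2
      have e3 : (avg (A ×ˢ B) fun w => gf (fun x y => h⁻¹ * g x y) w ^ 2) =
          (h⁻¹) ^ 2 * avg (A ×ˢ B) fun w => gf g w ^ 2 := by
        rw [← avg_div]
        congr 1
        funext w
        unfold H834.gf
        rw [mul_pow]
      rw [e3, Real.sqrt_mul (by positivity), Real.sqrt_sq (inv_pos.2 hh).le]
    rw [e2, inv_mul_le_iff₀ hh]
    refine H.a_n2.trans (le_of_eq ?_)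
    field_simp
  · have e3 : (avg B fun y => (h⁻¹ * g x y) ^ 2) = (h⁻¹) ^ 2 * avg B fun y => g x y ^ 2 := by
      rw [← avg_div]
      congr 1
      funext y
      rw [mul_pow]
    rw [e3]
    refine (mul_le_mul_of_nonneg_left (H.a_row x hx) (by positivity)).trans (le_of_eq ?_)
    field_simp
  · rw [hn]
    refine (mul_le_mul_of_nonneg_left (H.u_le z hz x hx) (by positivity)).trans (le_of_eq ?_)
    rw [e1]; norm_num
  · rw [hn]
    refine (mul_le_mul_of_nonneg_left (H.v_le z hz y hy) (by positivity)).trans (le_of_eq ?_)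
    rw [e1]; norm_num
  · simp only [hn, avg_div]
    refine (mul_le_mul_of_nonneg_left H.u_en (by positivity)).trans (le_of_eq ?_)
    field_simp
  · simp only [hn, avg_div]
    refine (mul_le_mul_of_nonneg_left H.v_en (by positivity)).trans (le_of_eq ?_)
    field_simp
  · simp only [hn, avg_div]
    refine (mul_le_mul_of_nonneg_left (H.u_col x hx) (by positivity)).trans (le_of_eq ?_)
    field_simp
  · simp only [hi, avg_div]
    refine (mul_le_mul_of_nonneg_left (H.u_pot z hz w) (by positivity)).trans (le_of_eq ?_)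
    field_simp
  · simp only [hi, avg_div]
    refine (mul_le_mul_of_nonneg_left (H.v_pot z hz w) (by positivity)).trans (le_of_eq ?_)
    field_simp

theorem Cen.mono_K {A B C : Finset ℤ} {h p e K K' : ℝ} {g : ℤ → ℤ → ℝ} {u v : ℤ → ℤ → V}
    (H : Cen A B C h p e K g u v) (hK : K ≤ K') : Cen A B C h p e K' g u v :=
  ⟨H.a_le, H.a_n2, H.a_row, H.u_le, H.v_le, H.u_en, H.v_en, H.u_col,
    fun z hz w => (H.u_pot z hz w).trans (mul_le_mul_of_nonneg_right hK (sq_nonneg _)),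
    fun z hz w => (H.v_pot z hz w).trans (mul_le_mul_of_nonneg_right hK (sq_nonneg _))⟩

/-- zero gauge -/
theorem Cen.zero_of {K : ℕ} {x : Pt} {h p e W : ℝ} {g : ℤ → ℤ → ℝ} {u v : ℤ → ℤ → V}
    (H : Cen (iv K x.2.1) (iv K x.2.2) (iv K x.1) h p e W g u v) (hz : h = 0 ∨ p = 0) :
    ∀ y ∈ cube3 K x, cenf 0 1 2 g u v y = 0 := by
  intro y hy
  rw [Vale.Agent.P141.PL.H315.mem_cube3] at hy
  obtain ⟨_, h2, h3⟩ := hy
  have hg : g y.2.1 y.2.2 = 0 := by
    rcases hz with hz | hz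
    · have h4 := H.a_le _ h2 _ h3
      rw [hz] at h4
      exact abs_eq_zero.1 (le_antisymm h4 (abs_nonneg _))
    · have h4 := H.a_n2
      rw [hz] at h4
      have h5 : n2 (iv K x.2.1 ×ˢ iv K x.2.2) (gf g) = 0 := le_antisymm h4 (n2_nonneg _ _)
      have h6 : (n2 (iv K x.2.1 ×ˢ iv K x.2.2) (gf g)) ^ 2 = 0 := by rw [h5]; norm_num
      rw [H922.n2_sq] at h6
      unfold Vale.Agent.P141.PL.H315.avg at h6
      have hc : (0 : ℝ) < ((iv K x.2.1 ×ˢ iv K x.2.2).card : ℝ) := by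
        exact_mod_cast card_pos.2 ⟨(y.2.1, y.2.2), mem_product.2 ⟨h2, h3⟩⟩
      have h7 : ∑ w ∈ iv K x.2.1 ×ˢ iv K x.2.2, gf g w ^ 2 = 0 := by
        rcases mul_eq_zero.1 h6 with h8 | h8
        · exact absurd h8 (inv_pos.2 hc).ne'
        · exact h8
      have h8 := (sum_eq_zero_iff_of_nonneg fun w _ => sq_nonneg (gf g w)).1 h7 (y.2.1, y.2.2)
        (mem_product.2 ⟨h2, h3⟩)
      exact pow_eq_zero_iff (two_ne_zero) |>.1 h8
  show g y.2.1 y.2.2 * _ = 0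
  rw [hg, zero_mul]

/-- **From normalised data to all data.** -/
theorem ce1St_of_n (H : CE1n) : CE1St := by
  obtain ⟨gam, c1, hg, hc1, H⟩ := H
  refine ⟨gam, c1, hg, hc1, fun c hc hcc Kt e cP L e0 hK he hcP hL he0 => ?_⟩
  obtain ⟨C, hC, H⟩ := H c hc hcc Kt e cP (L / e0) hK he hcP (by positivity)
  refine ⟨e0 * C, by positivity, ?_⟩
  intro t ht ht1 n ez F1 F2 F3 h1 h3 h2 o ho K hKn x V _ _ _ h p g u v hh hp hcen
  have hez : 0 ≤ ez := h2.1
  rcases hh.eq_or_lt with hz | hh0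
  · rw [cosF_congr (F0' := fun _ => 0) (Cen.zero_of hcen (Or.inl hz.symm)), cosF_zero]
    positivity
  rcases hp.eq_or_lt with hz | hp0
  · rw [cosF_congr (F0' := fun _ => 0) (Cen.zero_of hcen (Or.inr hz.symm)), cosF_zero]
    positivity
  set s : ℝ := (p / h) ^ 2 with hs
  have hph : 0 < p / h := div_pos hp0 hh0
  have hs0 : 0 < s := by positivity
  have hss : √s = p / h := Real.sqrt_sq hph.le
  have hN := Cen.norm hcen hh0 he0
  have hK2 : L * t ^ (2 - c) * (h * p) / (h ^ 2 * e0) = L / e0 * t ^ (2 - c) * √s := by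
    rw [hss]
    field_simp
  rw [hK2, ← hss] at hN
  have key := H t ht ht1 n ez F1 F2 F3 h1 h3 h2 o ho K hKn x V s _ _ _ hs0 hN
  have hse : 0 < √e0 := Real.sqrt_pos.2 he0
  have e1 : cenf 0 1 2 g u v = fun y => (h ^ 3 * e0) *
      comp (fun q => (fun x y => h⁻¹ * g x y) q.1 q.2) (fun z x => (h * √e0)⁻¹ • u z x)
        (fun z y => (h * √e0)⁻¹ • v z y) y := by
    funext y
    show g y.2.1 y.2.2 * inner ℝ (u y.1 y.2.1) (v y.1 y.2.2) = h ^ 3 * e0 *
      ((h⁻¹ * g y.2.1 y.2.2) * inner ℝ ((h * √e0)⁻¹ • u y.1 y.2.1) ((h * √e0)⁻¹ • v y.1 y.2.2))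
    rw [real_inner_smul_left, real_inner_smul_right]
    have h5 : h ^ 3 * e0 * (h⁻¹ * ((h * √e0)⁻¹ * (h * √e0)⁻¹)) = 1 := by
      have h6 : (h * √e0)⁻¹ * (h * √e0)⁻¹ = (h ^ 2 * e0)⁻¹ := by
        rw [← mul_inv, ← sq, mul_pow, Real.sq_sqrt he0.le]
      rw [h6]
      field_simp
    calc g y.2.1 y.2.2 * inner ℝ (u y.1 y.2.1) (v y.1 y.2.2)
        = 1 * (g y.2.1 y.2.2 * inner ℝ (u y.1 y.2.1) (v y.1 y.2.2)) := (one_mul _).symm
      _ = _ := by rw [← h5]; ring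
  rw [e1, cosF_smul, abs_of_pos (by positivity)]
  refine (mul_le_mul_of_nonneg_left key (by positivity)).trans (le_of_eq ?_)
  have h7 : s ^ (5 / 4 : ℝ) = (p / h) ^ 2 * √(p / h) := by
    rw [hs, ← Real.rpow_natCast (p / h) 2, ← Real.rpow_mul hph.le, Real.sqrt_eq_rpow,
      ← Real.rpow_add hph]
    norm_num
  have h8 : h ^ 3 * ((p / h) ^ 2 * √(p / h)) = √h * (p ^ 2 * √p) := by
    rw [Real.sqrt_div hp]
    have h9 : √h * √h = h := Real.mul_self_sqrt hh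
    have h10 : 0 < √h := Real.sqrt_pos.2 hh0
    field_simp
    nlinarith [h9]
  rw [h7]
  calc h ^ 3 * e0 * (C * (t ^ (1 + gam) * ((p / h) ^ 2 * √(p / h)) * √ez * 8 ^ K))
      = e0 * C * (t ^ (1 + gam) * (h ^ 3 * ((p / h) ^ 2 * √(p / h))) * √ez * 8 ^ K) := by ring
    _ = _ := by rw [h8]

end

end Vale.Agent.P141.H650
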